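import Mathlib
import Vale.Agent.Lib.P040.TwoPageDefs

/-!
Separated x-monotone drawings of complete bipartite graphs, with real curves: every edge is the
graph of a continuous function over the interval between the abscissas of its endpoints, and all
red vertices lie to the left of all blue vertices. Two edges without a common endpoint that are
forced to meet by the intermediate value theorem are counted, which bounds the number of crossing
pairs from below by a sum over the blue vertices of a purely combinatorial cost.
-/

namespace Vale.Agent.Lib.P040X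

open Finset

/-- A separated x-monotone drawing of `K_{m,n}`: red vertices at points `(redX r, redY r)` and
blue vertices at points `(blueX b, blueY b)`, numbered from left to right, all red vertices to the
left of all blue vertices; the edge between `r` and `b` is the graph of `curve r b` over the
interval from `redX r` to `blueX b`, a continuous function with the right endpoint values; no edge
passes through a vertex other than its two endpoints. -/
structure MonoDrawing (m n : ℕ) where
  /-- abscissa of a red vertex -/
  redX : Fin m → ℝ
  /-- abscissa of a blue vertex -/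
  blueX : Fin n → ℝ
  /-- ordinate of a red vertex -/
  redY : Fin m → ℝ
  /-- ordinate of a blue vertex -/
  blueY : Fin n → ℝ
  /-- red vertices are numbered from left to right -/
  redX_mono : StrictMono redX
  /-- blue vertices are numbered from left to right -/
  blueX_mono : StrictMono blueX
  /-- all red vertices lie to the left of all blue vertices -/
  sep : ∀ r b, redX r < blueX b
  /-- the function whose graph is the edge from `r` to `b` -/
  curve : Fin m → Fin n → ℝ → ℝ
  /-- edges are continuous curves -/
  cont : ∀ r b, ContinuousOn (curve r b) (Set.Icc (redX r) (blueX b))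
  /-- an edge starts at its red endpoint -/
  start : ∀ r b, curve r b (redX r) = redY r
  /-- an edge ends at its blue endpoint -/
  stop : ∀ r b, curve r b (blueX b) = blueY b
  /-- an edge avoids the red vertices above whose abscissa it is defined -/
  avoid_red : ∀ r b s, r < s → curve r b (redX s) ≠ redY s
  /-- an edge avoids the blue vertices above whose abscissa it is defined -/
  avoid_blue : ∀ r b c, c < b → curve r b (blueX c) ≠ blueY c

variable {m n : ℕ}

/-- The edges `(r, x)` and `(s, y)` share a point of the plane. -/
def MonoDrawing.Meet (D : MonoDrawing m n) (r s : Fin m) (x y : Fin n) : Prop :=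
  ∃ t ∈ Set.Icc (D.redX r) (D.blueX x) ∩ Set.Icc (D.redX s) (D.blueX y),
    D.curve r x t = D.curve s y t

open Classical in
/-- The number of crossing pairs: unordered pairs of edges `(r, x)`, `(s, y)` without common
endpoint that share a point (each pair is listed once, by `r < s`). The number of crossing points
of a drawing is at least this number. -/
noncomputable def MonoDrawing.crossings (D : MonoDrawing m n) : ℕ :=
  ((univ : Finset (Fin m × Fin m × Fin n × Fin n)).filter fun q =>
    q.1 < q.2.1 ∧ q.2.2.1 ≠ q.2.2.2 ∧ D.Meet q.1 q.2.1 q.2.2.1 q.2.2.2).card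

/-- Edge `(r, x)` passes above the blue vertex `y`. -/
noncomputable def MonoDrawing.ab (D : MonoDrawing m n) (r : Fin m) (x y : Fin n) : Bool :=
  open Classical in decide (D.blueY y < D.curve r x (D.blueX y))

/-- For bits `t x y` (`y < x`): the number of `y < z` with bit `t z y` false. -/
def aCount (t : Fin n → Fin n → Bool) (z : Fin n) : ℕ :=
  (univ.filter fun y : Fin n => y < z ∧ t z y = false).card

/-- For bits `t x y` (`y < x`): the number of `x > z` with bit `t x z` true. -/
def bCount (t : Fin n → Fin n → Bool) (z : Fin n) : ℕ :=
  (univ.filter fun x : Fin n => z < x ∧ t x z = true).card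

/-- The intermediate value theorem for two curves over a common interval. -/
lemma exists_meet {f g : ℝ → ℝ} {a b : ℝ} (hab : a ≤ b) (hf : ContinuousOn f (Set.Icc a b))
    (hg : ContinuousOn g (Set.Icc a b))
    (h : (g a < f a ∧ f b < g b) ∨ (f a < g a ∧ g b < f b)) :
    ∃ t ∈ Set.Icc a b, f t = g t := by
  have hc : ContinuousOn (fun t => f t - g t) (Set.Icc a b) := hf.sub hg
  rcases h with ⟨h1, h2⟩ | ⟨h1, h2⟩
  · have := intermediate_value_Icc' hab hc
    have hm : (0 : ℝ) ∈ Set.Icc (f b - g b) (f a - g a) := ⟨by linarith, by linarith⟩
    obtain ⟨t, ht, hte⟩ := this hm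
    exact ⟨t, ht, by simpa [sub_eq_zero] using hte⟩
  · have := intermediate_value_Icc hab hc
    have hm : (0 : ℝ) ∈ Set.Icc (f a - g a) (f b - g b) := ⟨by linarith, by linarith⟩
    obtain ⟨t, ht, hte⟩ := this hm
    exact ⟨t, ht, by simpa [sub_eq_zero] using hte⟩

/-- Meeting forced when `z < y`: the first edge ends before the second one. -/
lemma meet_of_lt (D : MonoDrawing m n) {r s : Fin m} (hrs : r < s) {z y : Fin n} (hzy : z < y)
    (h : D.ab s y z = decide (D.redY s < D.curve r z (D.redX s))) : D.Meet r s z y := by
  classical
  have hs : D.redX r < D.redX s := D.redX_mono hrs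
  have hb : D.blueX z < D.blueX y := D.blueX_mono hzy
  have hab : D.redX s ≤ D.blueX z := (D.sep s z).le
  have hf : ContinuousOn (D.curve r z) (Set.Icc (D.redX s) (D.blueX z)) :=
    (D.cont r z).mono (Set.Icc_subset_Icc_left hs.le)
  have hg : ContinuousOn (D.curve s y) (Set.Icc (D.redX s) (D.blueX z)) :=
    (D.cont s y).mono (Set.Icc_subset_Icc_right hb.le)
  have hne1 := D.avoid_red r z s hrs
  have hne2 := D.avoid_blue s y z hzy
  have hstart := D.start s y
  have hstop := D.stop r z
  obtain ⟨t, ht, hte⟩ := exists_meet hab hf hg (by
    rw [hstart, hstop]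
    unfold MonoDrawing.ab at h
    by_cases h1 : D.redY s < D.curve r z (D.redX s)
    · left
      have h2 : D.blueY z < D.curve s y (D.blueX z) := by simpa [h1] using h
      exact ⟨h1, h2⟩
    · right
      have h2 : ¬ D.blueY z < D.curve s y (D.blueX z) := by simpa [h1] using h
      exact ⟨lt_of_le_of_ne (not_lt.mp h1) hne1, lt_of_le_of_ne (not_lt.mp h2) hne2⟩)
  exact ⟨t, ⟨⟨hs.le.trans ht.1, ht.2⟩, ⟨ht.1, ht.2.trans hb.le⟩⟩, hte⟩

/-- Meeting forced when `y < z`: the second edge ends before the first one. -/
lemma meet_of_gt (D : MonoDrawing m n) {r s : Fin m} (hrs : r < s) {z y : Fin n} (hyz : y < z)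
    (h : D.ab r z y ≠ decide (D.redY s < D.curve r z (D.redX s))) : D.Meet r s z y := by
  classical
  have hs : D.redX r < D.redX s := D.redX_mono hrs
  have hb : D.blueX y < D.blueX z := D.blueX_mono hyz
  have hab : D.redX s ≤ D.blueX y := (D.sep s y).le
  have hf : ContinuousOn (D.curve r z) (Set.Icc (D.redX s) (D.blueX y)) :=
    (D.cont r z).mono (Set.Icc_subset_Icc hs.le hb.le)
  have hg : ContinuousOn (D.curve s y) (Set.Icc (D.redX s) (D.blueX y)) := D.cont s y
  have hne1 := D.avoid_red r z s hrs
  have hne2 := D.avoid_blue r z y hyz
  have hstart := D.start s y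
  have hstop := D.stop s y
  obtain ⟨t, ht, hte⟩ := exists_meet hab hf hg (by
    rw [hstart, hstop]
    unfold MonoDrawing.ab at h
    by_cases h1 : D.redY s < D.curve r z (D.redX s)
    · left
      have h2 : ¬ D.blueY y < D.curve r z (D.blueX y) := by simpa [h1] using h
      exact ⟨h1, lt_of_le_of_ne (not_lt.mp h2) hne2⟩
    · right
      have h2 : D.blueY y < D.curve r z (D.blueX y) := by simpa [h1] using h
      exact ⟨lt_of_le_of_ne (not_lt.mp h1) hne1, h2⟩)
  exact ⟨t, ⟨⟨hs.le.trans ht.1, ht.2.trans hb.le⟩, ht⟩, hte⟩

/-- Complement counts for `aCount`. -/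
lemma card_true_lt (t : Fin n → Fin n → Bool) (z : Fin n) :
    (univ.filter fun y : Fin n => y < z ∧ t z y = true).card + aCount t z = z := by
  unfold aCount
  have h : (univ.filter fun y : Fin n => y < z) = Finset.Iio z := by
    ext y; simp
  have hc : (univ.filter fun y : Fin n => y < z).card = z := by
    rw [h, Fin.card_Iio]
  rw [← hc, ← Finset.card_union_of_disjoint]
  · congr 1
    ext y
    simp only [mem_union, mem_filter, mem_univ, true_and]
    cases t z y <;> simp
  · rw [Finset.disjoint_left]
    intro y hy hy'
    simp only [mem_filter, mem_univ, true_and] at hy hy'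
    rw [hy.2] at hy'
    simp at hy'

/-- Complement counts for `bCount`. -/
lemma card_false_gt (t : Fin n → Fin n → Bool) (z : Fin n) :
    (univ.filter fun x : Fin n => z < x ∧ t x z = false).card + bCount t z = n - 1 - z := by
  unfold bCount
  have h : (univ.filter fun x : Fin n => z < x) = Finset.Ioi z := by
    ext y; simp
  have hc : (univ.filter fun x : Fin n => z < x).card = n - 1 - z := by
    rw [h, Fin.card_Ioi]
  rw [← hc, ← Finset.card_union_of_disjoint]
  · congr 1
    ext y
    simp only [mem_union, mem_filter, mem_univ, true_and]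
    cases t y z <;> simp
  · rw [Finset.disjoint_left]
    intro y hy hy'
    simp only [mem_filter, mem_univ, true_and] at hy hy'
    rw [hy.2] at hy'
    simp at hy'

open Classical in
/-- For fixed `r < s` and blue `z`: the edges `(s, y)` that meet `(r, z)` are at least the minimum
of the two parity counts. -/
lemma fiber_bound (D : MonoDrawing m n) {r s : Fin m} (hrs : r < s) (z : Fin n) :
    min (aCount (D.ab r) z + bCount (D.ab s) z) (n - 1 - (aCount (D.ab r) z + bCount (D.ab s) z))
      ≤ (univ.filter fun y : Fin n => y ≠ z ∧ D.Meet r s z y).card := by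
  have hzn : (z : ℕ) < n := z.2
  have hA := card_true_lt (D.ab r) z
  have hB := card_false_gt (D.ab s) z
  by_cases h1 : D.redY s < D.curve r z (D.redX s)
  · refine (min_le_left _ _).trans ?_
    unfold aCount bCount
    rw [← Finset.card_union_of_disjoint]
    · apply Finset.card_le_card
      intro y hy
      simp only [mem_union, mem_filter, mem_univ, true_and] at hy ⊢
      rcases hy with ⟨hy, hb⟩ | ⟨hy, hb⟩
      · refine ⟨hy.ne, meet_of_gt D hrs hy ?_⟩
        simp [hb, h1]
      · refine ⟨hy.ne', meet_of_lt D hrs hy ?_⟩
        simp [hb, h1]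
    · rw [Finset.disjoint_left]
      intro y hy hy'
      simp only [mem_filter, mem_univ, true_and] at hy hy'
      exact absurd hy.1 (not_lt.mpr hy'.1.le)
  · refine (min_le_right _ _).trans ?_
    have hle : n - 1 - (aCount (D.ab r) z + bCount (D.ab s) z) ≤
        (univ.filter fun y : Fin n => y < z ∧ D.ab r z y = true).card +
          (univ.filter fun x : Fin n => z < x ∧ D.ab s x z = false).card := by
      omega
    refine hle.trans ?_
    rw [← Finset.card_union_of_disjoint]
    · apply Finset.card_le_card
      intro y hy
      simp only [mem_union, mem_filter, mem_univ, true_and] at hy ⊢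
      rcases hy with ⟨hy, hb⟩ | ⟨hy, hb⟩
      · refine ⟨hy.ne, meet_of_gt D hrs hy ?_⟩
        simp [hb, h1]
      · refine ⟨hy.ne', meet_of_lt D hrs hy ?_⟩
        simp [hb, h1]
    · rw [Finset.disjoint_left]
      intro y hy hy'
      simp only [mem_filter, mem_univ, true_and] at hy hy'
      exact absurd hy.1 (not_lt.mpr hy'.1.le)

/-- The cost sum is a lower bound for the number of crossing pairs of the drawing. -/
theorem cost_le_crossings (D : MonoDrawing m n) :
    ∑ r : Fin m, ∑ s ∈ Finset.Ioi r, ∑ z : Fin n,
      min (aCount (D.ab r) z + bCount (D.ab s) z)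
        (n - 1 - (aCount (D.ab r) z + bCount (D.ab s) z)) ≤ D.crossings := by
  classical
  -- the crossing set contains the disjoint union of the fibers
  have hsub : ∀ r : Fin m, ∀ s ∈ Finset.Ioi r, ∀ z : Fin n,
      min (aCount (D.ab r) z + bCount (D.ab s) z)
        (n - 1 - (aCount (D.ab r) z + bCount (D.ab s) z)) ≤
      (univ.filter fun y : Fin n => y ≠ z ∧ D.Meet r s z y).card := by
    intro r s hs z
    exact fiber_bound D (Finset.mem_Ioi.mp hs) z
  calc
    _ ≤ ∑ r : Fin m, ∑ s ∈ Finset.Ioi r, ∑ z : Fin n,
          (univ.filter fun y : Fin n => y ≠ z ∧ D.Meet r s z y).card :=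
        Finset.sum_le_sum fun r _ => Finset.sum_le_sum fun s hs => Finset.sum_le_sum fun z _ =>
          hsub r s hs z
    _ = ((univ : Finset (Fin m)).sigma (fun r => (Finset.Ioi r).sigma fun s =>
          (univ : Finset (Fin n)).sigma fun z =>
            univ.filter fun y : Fin n => y ≠ z ∧ D.Meet r s z y)).card := by
        simp only [Finset.card_sigma]
    _ ≤ D.crossings := by
        unfold MonoDrawing.crossings
        apply Finset.card_le_card_of_injOn
          (fun p => (p.1, p.2.1, p.2.2.1, p.2.2.2))
        · rintro ⟨r, s, z, y⟩ hp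
          simp only [Finset.coe_sigma, Set.mem_sigma_iff, Finset.mem_coe, mem_univ, true_and,
            Finset.mem_Ioi, mem_filter] at hp
          simp only [Finset.coe_filter, Set.mem_ofPred_eq, mem_univ, true_and]
          exact ⟨hp.1, hp.2.1.symm, hp.2.2⟩
        · rintro ⟨r, s, z, y⟩ _ ⟨r', s', z', y'⟩ _ h
          simp only [Prod.mk.injEq] at h
          obtain ⟨rfl, rfl, rfl, rfl⟩ := h
          rfl

end Vale.Agent.Lib.P040X
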